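import Vale.Agent.P352X.R.A2.Abs
import Vale.Agent.P352Z.R.A2.Mon
import Vale.Agent.P352Z.R.BAS

/-!
# P352Z, row A2: the abstract bound
-/

namespace Vale.Agent.P352X.ZZ.A2
export Vale.Agent.P352X.A2 (Gf Gf_int Gf_le Gf_lip Gf_re Gf_sq bdG bdP fatou key pr_int q_int)
end Vale.Agent.P352X.ZZ.A2
namespace Vale.Agent.P352X.ZZ.Br
export Vale.Agent.P352X.Br (al_dsc meas_al)
end Vale.Agent.P352X.ZZ.Br
namespace Vale.Agent.P352X.ZZ.KDa
export Vale.Agent.P352X.KDa (UG.add UG.at UG.gn UG.nrm pr_smul pr_sub pr_symm)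
end Vale.Agent.P352X.ZZ.KDa

set_option linter.all false

noncomputable section

open MeasureTheory Filter Topology Complex
open UniformSpace (Completion)

namespace Vale.Agent.P352X.ZZ.A2

open Vale.Agent.P352 Vale.Agent.P352.GF Vale.Agent.P352.BW Vale.Agent.P352.H496

variable {D : Type*} [NormedAddCommGroup D] [InnerProductSpace ℂ D] {c : Ctx D}

lemma al_nonneg (g : GRP c) (v : Completion D) : ∀ᵐ p ∂c.nu v, 0 ≤ al p :=
  (Kin.cone c.ct v).mono fun q hq => Kin.Cone.md_nonneg g.nb hq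

variable {a τ : ℝ} (ha : 0 ≤ a) (hτ : 0 < τ)
include ha

lemma chi_int (v : Completion D) :
    ∫ s in Set.Ioc 0 a, Real.exp (-s) • Pb c.Q (-(τ * s)) v =
      c.bt.Phi (fun p => Gf a (τ * al p)) v := by
  have h := (c.bt.smear SN.isPair_mdot (m := volume.restrict (Set.Ioc 0 a))
    (y := fun s : ℝ => -(τ * s) • vb) (by fun_prop) (u := fun s => (Real.exp (-s) : ℂ))
    (Continuous.integrableOn_Ioc (by fun_prop)) v).2
  simp only [Complex.coe_smul] at h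
  refine h.trans ?_
  congr 2
  funext p
  rw [← Gf_int, intervalIntegral.integral_of_le ha]
  refine integral_congr_ae (.of_forall fun s => ?_)
  simp only [SN.ch, H755.md_smul, md_vb', ofReal_exp, ← Complex.exp_add]
  congr 1
  push_cast
  ring

lemma chi_norm (v : Completion D) : ‖c.bt.Phi (fun p => Gf a (τ * al p)) v‖ ≤ 2 * ‖v‖ :=
  c.bt.norm_le (bdG ha τ) zero_le_two v (.of_forall fun p => Gf_le ha _)

lemma chi_B (g : GRP c) {η ζ : Completion D} (h : Gn (Bo c.Q) η ζ) :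
    Dm (Bo c.Q) (c.bt.Phi (fun p => Gf a (τ * al p)) η) ∧
      ‖gen (Bo c.Q) (c.bt.Phi (fun p => Gf a (τ * al p)) η)‖ ≤ 2 * ‖ζ‖ + 3 * ‖η‖ := by
  refine (ugB g).dm_of_lip_pos one_pos fun t ht => ?_
  have e := Br.Usc_Phi c (Real.exp_pos t) (Real.exp_pos (-t)) (bdG ha τ) η
  simp only [Br.al_dsc (Real.exp_pos t) (Real.exp_pos (-t)), ← mul_assoc] at e
  have h1 := chi_norm (τ := τ * Real.exp (-t)) (c := c) ha (Bo c.Q t η - η)
  have h2 := (ugB g).lip h t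
  have h3 := c.bt.norm_le ((bdG ha (τ * Real.exp (-t))).sub (bdG ha τ)) (K := 3 * t)
    (by linarith [ht.1]) η (.of_forall fun p => by
      rw [mul_comm τ, mul_assoc]
      refine (Gf_lip ha _ _).trans ?_
      rw [abs_sub_comm, abs_of_nonneg (sub_nonneg.2 (Real.exp_le_one_iff.2 (by linarith [ht.1])))]
      linarith [Real.add_one_le_exp (-t)])
  rw [c.bt.sub (bdG ha _) (bdG ha _), ContinuousLinearMap.sub_apply] at h3
  rw [map_sub] at h1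
  rw [abs_of_pos ht.1] at h2
  refine (congrArg (fun z => ‖z - _‖) e).trans_le ((norm_sub_le_norm_sub_add_norm_sub _ _ _).trans
    ((add_le_add h1 h3).trans ?_))
  linarith

include hτ

lemma chi_pr (g : GRP c) {r r' : ℝ} (hr : 0 < r) (hr' : 0 < r') (h : r' * (1 + 2 * r * (τ * a)) ≤ r)
    {η η' : Completion D} (hp : Pr (c.N (Rc r 0)) c.Om η η') : Pr (c.N (Rc r' 0)) c.Om
      (c.bt.Phi (fun p => Gf a (τ * al p)) η) (c.bt.Phi (fun p => Gf a (τ * al p)) η') := by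
  have hi : ∀ v, IntegrableOn (fun s => Real.exp (-s) • Pb c.Q (-(τ * s)) v) (Set.Ioc 0 a) :=
    fun v => Continuous.integrableOn_Ioc ((by fun_prop : Continuous fun s => Real.exp (-s)).smul
      ((ugP g).cont' (by fun_prop) continuous_const))
  rw [← chi_int ha, ← chi_int ha]
  refine pr_int (hi _) (hi _) ((ae_restrict_mem measurableSet_Ioc).mono fun s hs =>
    KDa.pr_smul _ (pr_tr g hr hr' (mul_nonneg hτ.le hs.1.le) (le_trans ?_ h) hp))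
  have := hs.2
  gcongr

lemma chi_P (η : Completion D) : Gn (Pb c.Q) (c.bt.Phi (fun p => Gf a (τ * al p)) η)
    (c.bt.Phi (fun p => (al p : ℂ) * Gf a (τ * al p)) η) := by
  have h := SN.Calc.Dom.of_bd (C := c.bt.toCalc) (bdP ha hτ) η
  have hm : Measurable fun p => (al p : ℂ) := by fun_prop
  exact c.cgn_Pb.2 ⟨(SN.Calc.dom_Phi (bdG ha τ) hm).2 h,
    (SN.Calc.Psi_Phi (bdG ha τ) hm h).trans (SN.Calc.Psi_bd (bdP ha hτ) η)⟩

lemma chi_low (g : GRP c) (η : Completion D) :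
    τ * a * ∫ p, al p * (1 + (τ * al p) ^ 2)⁻¹ ∂c.nu η ≤ ‖η‖ ^ 2 +
      τ * a * (inner ℂ (c.bt.Phi (fun p => (al p : ℂ) * Gf a (τ * al p)) η) η).re := by
  have hi := (bdP ha hτ).integrable (c.nu η)
  rw [← inner_conj_symm, conj_re, c.bt.inner (bdP ha hτ), ← c.bt.nu_univ, ← mul_one (Measure.real _ _),
    ← smul_eq_mul (Measure.real _ _), ← integral_const, ← reCLM_apply, ← reCLM.integral_comp_comm hi, ← integral_const_mul,
    ← integral_const_mul, ← integral_add (integrable_const _) ((reCLM.integrable_comp hi).const_mul _)]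
  refine integral_mono_ae ((q_int _ meas_al hτ).const_mul _) ((integrable_const _).add
    ((reCLM.integrable_comp hi).const_mul _)) ((al_nonneg g η).mono fun p hp => ?_)
  have := Gf_re ha (mul_nonneg hτ.le hp)
  simp only [reCLM_apply, re_ofReal_mul]
  linarith

lemma chi_up (g : GRP c) (η : Completion D) :
    (inner ℂ (c.bt.Phi (fun p => Gf a (τ * al p)) η)
      (c.bt.Phi (fun p => (al p : ℂ) * Gf a (τ * al p)) η)).re ≤
      4 * ∫ p, al p * (1 + (τ * al p) ^ 2)⁻¹ ∂c.nu η := by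
  have hi := ((bdG ha τ).cj.mul (bdP ha hτ)).integrable (c.nu η)
  rw [c.bt.inner_Phi (bdG ha τ) (bdP ha hτ), ← reCLM_apply, ← reCLM.integral_comp_comm hi,
    ← integral_const_mul]
  refine integral_mono_ae (reCLM.integrable_comp hi) ((q_int _ meas_al hτ).const_mul _)
    ((al_nonneg g η).mono fun p hp => ?_)
  have := mul_le_mul_of_nonneg_left (Gf_sq ha (τ * al p)) hp
  simp only [reCLM_apply, mul_left_comm _ (al p : ℂ), SN.conj_mul_self, re_ofReal_mul, ofReal_re]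
  linarith

omit ha in
lemma chi_all (g : GRP c) {r : ℝ} (hr : 0 < r) {η η' ζ : Completion D}
    (hp : Pr (c.N (Rc (r / 2) 0)) c.Om η η') (h : Gn (Bo c.Q) η ζ) : ∃ x x' b p,
      Pr (c.N (Rc (r / 3) 0)) c.Om x x' ∧ Gn (Bo c.Q) x b ∧ Gn (Pb c.Q) x p ∧ ‖x‖ ≤ 2 * ‖η‖ ∧
      ‖x'‖ ≤ 2 * ‖η'‖ ∧ ‖b‖ ≤ 2 * ‖ζ‖ + 3 * ‖η‖ ∧
      ∫ p, al p * (1 + (τ * al p) ^ 2)⁻¹ ∂c.nu η ≤ 2 * r * ‖η‖ ^ 2 + (inner ℂ p η).re ∧
      (inner ℂ x p).re ≤ 4 * ∫ p, al p * (1 + (τ * al p) ^ 2)⁻¹ ∂c.nu η := by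
  have ha : 0 ≤ (2 * r * τ)⁻¹ := by positivity
  have e1 : τ * (2 * r * τ)⁻¹ = (2 * r)⁻¹ := by field_simp
  have h1 := mul_le_mul_of_nonneg_left (chi_low ha hτ g η) (show 0 ≤ 2 * r by positivity)
  rw [e1, mul_add, mul_inv_cancel_left₀ (by positivity), mul_inv_cancel_left₀ (by positivity)] at h1
  exact ⟨_, _, _, _, chi_pr ha hτ g (by positivity) (by positivity)
    (by rw [e1]; field_simp; norm_num) hp, (chi_B ha g h).1.gn, chi_P ha hτ η, chi_norm ha η,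
    chi_norm ha η', (chi_B ha g h).2, h1, chi_up ha hτ g η⟩

omit ha hτ

lemma tr_lip (g : GRP c) {r C u : ℝ} (hr : 0 < r) (hC : 0 ≤ C) (hb : ∀ ψ ψ' β,
    Pr (c.N (Rc (r / 4) 0)) c.Om ψ ψ' → Gn (Bo c.Q) ψ β →
      Dm c.SK ψ ∧ ‖gen c.SK ψ‖ ≤ C * (‖ψ‖ + ‖ψ'‖ + ‖β‖)) {φ φ' p p' β π : Completion D}
    (hp : Pr (c.N (Rc r 0)) c.Om φ φ') (h1 : Gn (Pb c.Q) φ p) (h2 : Gn (Pb c.Q) φ' p')
    (h3 : Gn (Bo c.Q) φ β) (h5 : Gn (Pb c.Q) β π) (h0 : 0 < u) (hu : 2 * r * u ≤ 1) :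
    Dm c.SK (Pb c.Q (-u) φ) ∧
      ‖gen c.SK (Pb c.Q (-u) φ) - gen c.SK φ‖ ≤ u * (C * (2 * ‖p‖ + ‖p'‖ + ‖π‖)) := by
  have r4 : 0 < r / 4 := by positivity
  have hp4 := KDa.rc_mono g r4.le (by linarith) hp
  have p1 := pr_tr g hr r4 h0.le (by nlinarith) hp
  have p2 := (hb _ _ _ p1 (gn_B_P g h1 h3 _)).1
  have p3 := (hb _ _ _ (KDa.pr_sub p1 hp4) ((gn_B_P g h1 h3 _).sub h3)).2
  rw [gen_sub p2 (hb _ _ _ hp4 h3).1, add_sub_right_comm] at p3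
  refine ⟨p2, p3.trans ?_⟩
  have l1 := (ugP g).lip h1 (-u)
  have l2 := (ugP g).lip h2 (-u)
  have l3 := (ugP g).lip h5 (-u)
  have l4 := norm_add_le (Pb c.Q (-u) β - β) ((-1 * -u) • Pb c.Q (-u) p)
  rw [norm_smul, (ugP g).nrm, neg_one_mul, neg_neg, Real.norm_of_nonneg h0.le] at l4
  rw [abs_neg, abs_of_pos h0] at l1 l2 l3
  rw [mul_left_comm, neg_one_mul, neg_neg]
  exact mul_le_mul_of_nonneg_left (by linarith) hC

/-- **the abstract bound** -/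
theorem abs_bd (g : GRP c) (j : JC c) {r : ℝ} (hr : 0 < r) : ∃ C : ℝ, 0 ≤ C ∧
    ∀ (φ φ' p p' β β' π γ : Completion D) (N : ℝ), Pr (c.N (Rc r 0)) c.Om φ φ' →
      Gn (Pb c.Q) φ p → Gn (Pb c.Q) φ' p' → Gn (Bo c.Q) φ β → Gn (Bo c.Q) φ' β' →
      Gn (Pb c.Q) β π → Gn (Bo c.Q) β γ →
      ‖φ‖ + ‖φ'‖ + ‖p‖ + ‖p'‖ + ‖β‖ + ‖β'‖ + ‖π‖ + ‖γ‖ ≤ N →
      c.qb (gen c.SK φ) ≤ ENNReal.ofReal (C * N ^ 2) := by
  have r4 : 0 < r / 4 := by positivity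
  have r3 : 0 < r / 3 := by positivity
  have r2 : 0 < r / 2 := by positivity
  obtain ⟨C, hC, hb⟩ := KDa.kd_a g r4
  refine ⟨2 * r * 2 * C ^ 2 + 22 * C ^ 3 + 4 + 16 * C + 8 * C ^ 2, by positivity,
    fun φ φ' p p' β β' π γ N hp h1 h2 h3 h4 h5 h6 hN => ?_⟩
  have n1 := norm_nonneg φ
  have n2 := norm_nonneg φ'
  have n3 := norm_nonneg p
  have n4 := norm_nonneg p'
  have n5 := norm_nonneg β
  have n6 := norm_nonneg β'
  have n7 := norm_nonneg π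
  have n8 := norm_nonneg γ
  have N0 : 0 ≤ N := by linarith
  have hp4 := KDa.rc_mono g r4.le (by linarith) hp
  obtain ⟨d1, b1⟩ := hb _ _ _ hp4 h3
  obtain ⟨d2, b2⟩ := hb _ _ _ (KDa.pr_symm hp4) h4
  obtain ⟨d3, g3⟩ := KDa.gn_B_K g hr hp h3 h4 h6
  have b3 := (hb _ _ _ (KDa.pr_genB g r4.le (by linarith) hp h3 h4) (h6.smul I)).2
  rw [gen_smul I d3] at b3
  have b4 := norm_sub_le (gen c.SK β) (I • gen c.SK φ)
  have ev : ∀ᶠ u in 𝓝[>] (0 : ℝ), u ∈ Set.Ioo 0 (min (1 / 4) (2 * r)⁻¹) :=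
    Ioo_mem_nhdsGT (by positivity)
  have ev' : ∀ᶠ u in 𝓝[>] (0 : ℝ), 0 < u ∧ u ≤ 1 / 4 ∧ 2 * r * u ≤ 1 := ev.mono fun u hu =>
    ⟨hu.1, (lt_min_iff.1 hu.2).1.le, by
      rw [← le_inv_mul_iff₀ (by positivity), mul_one]; exact (lt_min_iff.1 hu.2).2.le⟩
  have e0 : c.nu (gen c.SK φ) = c.nu (I • gen c.SK φ) := by
    rw [Ctx.nu, Ctx.nu, c.bt.nu_smul, nnnorm_I, one_pow, one_smul]
  rw [Ctx.qb, e0]
  refine fatou meas_al (al_nonneg g _) fun τ hτ => ?_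
  obtain ⟨x, x', b, q, x0, x1, x3, x6, x7, x2, x8, x9⟩ :=
    chi_all hτ g hr (KDa.pr_genK g r2.le (by linarith) hp d1.gn d2.gn) (g3.smul I)
  obtain ⟨x4, x5⟩ := hb _ _ _ (KDa.rc_mono g r4.le (by linarith) x0) x1
  have k := key (ugS g) (ugP g)
    (ev'.mono fun u hu x k b p k' => mon2 g j hu.1 hu.2.1) x4.gn x1 x3
    (ev'.mono fun u hu => KDa.dom g r4 (pr_tr g r3 r4 hu.1.le (by nlinarith [hu.2.2]) x0)
      (gn_B_P g x3 x1 _).dm) d1.gn h3 h1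
    (ev'.mono fun u hu => tr_lip g hr hC hb hp h1 h2 h3 h5 hu.1 hu.2.2)
  simp only [norm_smul, norm_I, one_mul] at b3 b4 x2 x6 x7 x8
  have c1 : ‖gen c.SK φ‖ ≤ C * N := b1.trans (mul_le_mul_of_nonneg_left (by linarith) hC)
  have c2 : ‖gen c.SK φ'‖ ≤ C * N := b2.trans (mul_le_mul_of_nonneg_left (by linarith) hC)
  have c3 : ‖gen c.SK β‖ ≤ C * N := b3.trans (mul_le_mul_of_nonneg_left (by linarith) hC)
  have re : ∀ {x y : Completion D} {A B : ℝ}, ‖x‖ ≤ A → ‖y‖ ≤ B → (inner ℂ x y).re ≤ A * B :=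
    fun hx hy => (re_le_norm _).trans ((norm_inner_le_norm _ _).trans
      (mul_le_mul hx hy (norm_nonneg _) ((norm_nonneg _).trans hx)))
  have c4 := x6.trans (mul_le_mul_of_nonneg_left c1 zero_le_two)
  have c5 := re c4 (x5.trans (mul_le_mul_of_nonneg_left (c := 11 * (C * N)) (by linarith) hC))
  have c6 := re (show ‖φ‖ ≤ N by linarith) (show ‖p‖ ≤ N by linarith)
  have c7 := re (show ‖φ‖ ≤ N by linarith) c1
  have c8 := mul_le_mul c4 (mul_le_mul_of_nonneg_left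
    (show 2 * ‖p‖ + ‖p'‖ + ‖π‖ ≤ 2 * N by linarith) hC) (by positivity) (by positivity)
  have c9 := mul_le_mul_of_nonneg_left (pow_le_pow_left₀ (norm_nonneg _) c1 2)
    (show 0 ≤ 2 * r by positivity)
  linarith

end Vale.Agent.P352X.ZZ.A2
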